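import Mathlib
import Vale.Agent.Lib.P337.TwoDefs
import Vale.Agent.Lib.P337.TwoCh

namespace Vale.Agent.Results.P337.CountingLevel

open Vale.Agent.P337Two

/-- the existential theory of the reals is in some fixed level of the counting hierarchy -/
theorem result : ∃ j : ℕ, Level j TrueSentences := exists_level_trueSentences

end Vale.Agent.Results.P337.CountingLevel
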