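import Mathlib
import Vale.Agent.Lib.P337.Defs
import Vale.Agent.Lib.P337.Final

namespace Vale.Agent.Results.P337.EtrInCH

open Vale.Agent.P337

/-- the existential theory of the reals is in the counting hierarchy -/
theorem result : ETR ∈ CH := ETR_mem_CH

end Vale.Agent.Results.P337.EtrInCH
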