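import Mathlib
import Vale.Agent.Lib.P337.ThreeDefs
import Vale.Agent.Lib.P337.Three

namespace Vale.Agent.Results.P337.EtrMajority

open Vale.Agent.P337Three

/-- the existential theory of the reals lies in a fixed level of the counting hierarchy -/
theorem result : ∃ j : ℕ, ETR ∈ C j := exists_mem_C

end Vale.Agent.Results.P337.EtrMajority
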